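import Vale.Agent.P038.H391.MF
import Vale.Agent.P038.H71.Plan

/-!
# Assembly: Seymour's second neighbourhood conjecture
-/

namespace Vale.Agent.P038.H570

open Finset Vale.Agent.P038 Vale.Agent.P038.H139

universe u

theorem no_NFmin {V : Type u} [Fintype V] [Nonempty V] {D : OGraph V} {w : V → ℝ}
    (h : NFmin 1 D w) : False := by
  classical
  have hpos := h.toNF.pos
  set N : V → Finset V := fun a => cl D {a} with hN
  have hmemN : ∀ a b, b ∈ N a ↔ b = a ∨ D.arc a b := by
    intro a b
    simp only [hN, mem_cl, Finset.mem_singleton, exists_eq_left]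
  have hnb : ∀ S : Finset V, H391.nb N S = cl D S := by
    intro S
    ext z
    rw [H391.mem_nb, mem_cl]
    constructor
    · rintro ⟨x, hx, hz⟩
      rcases (hmemN x z).1 hz with rfl | hz
      · exact Or.inl hx
      · exact Or.inr ⟨x, hx, hz⟩
    · rintro (hz | ⟨x, hx, hz⟩)
      · exact ⟨z, hz, (hmemN z z).2 (Or.inl rfl)⟩
      · exact ⟨x, hx, (hmemN x z).2 (Or.inr hz)⟩
  refine H391.no_strict N (fun a => (hmemN a a).2 (Or.inl rfl)) ?_ w hpos ?_ ?_
  · intro a b hb ha
    rcases (hmemN a b).1 hb with h1 | h1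
    · exact h1.symm
    · rcases (hmemN b a).1 ha with h2 | h2
      · exact h2
      · exact absurd h2 (D.asymm _ _ h1)
  · intro a
    by_contra hcon
    push Not at hcon
    have h1 : N1 D a = ∅ := by
      rw [Finset.eq_empty_iff_forall_notMem]
      intro b hb
      rw [mem_N1] at hb
      have := hcon b ((hmemN a b).2 (Or.inr hb))
      subst this
      exact D.loopless _ hb
    have h2 := h.toNF.one a
    unfold Fw at h2
    rw [h1] at h2
    have h3 : W w (∅ : Finset V) = 0 := by simp [W]
    have h4 := W_nonneg (fun v => (hpos v).le) (N2 D a)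
    rw [h3] at h2
    linarith
  · intro X hX
    rw [hnb] at hX
    have hW : ∀ S : Finset V, H391.W w S = W w S := fun _ => rfl
    unfold H391.hh
    rw [hnb, hnb, hW, hW, hW]
    have hclX : cl D X = X ∪ H71.Lx D X := by
      ext z
      unfold H71.Lx
      rw [mem_cl, Finset.mem_union, Finset.mem_sdiff, mem_outS]
      tauto
    have hLne : H71.Lx D X ≠ ∅ := by
      intro h0
      rw [h0, Finset.union_empty] at hclX
      exact hX hclX
    have hlt := H71.plan_lt h X ∅ (Finset.ssubset_iff_subset_ne.2
      ⟨Finset.empty_subset _, fun h0 => hLne h0.symm⟩)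
    unfold H71.dd at hlt
    have h0 : cl D (∅ : Finset V) = ∅ := by
      rw [Finset.eq_empty_iff_forall_notMem]
      intro z hz
      rw [mem_cl] at hz
      simp at hz
    have h3 : W w (∅ : Finset V) = 0 := by simp [W]
    rw [h0, Finset.empty_sdiff, h3] at hlt
    have hdis : Disjoint X (H71.Lx D X) := by
      unfold H71.Lx
      exact Finset.disjoint_sdiff
    have e1 : W w (cl D X) = W w X + W w (H71.Lx D X) := by
      rw [hclX, W_union hdis]
    have e2 : cl D (cl D X) = X ∪ (cl D (H71.Lx D X) \ X) := by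
      have e3 : cl D (cl D X) = cl D X ∪ cl D (H71.Lx D X) := by
        conv_lhs => rw [hclX]
        rw [cl_union]
      rw [e3, hclX]
      ext z
      simp only [Finset.mem_union, Finset.mem_sdiff]
      have : z ∈ H71.Lx D X → z ∈ cl D (H71.Lx D X) := fun hz => mem_cl.2 (Or.inl hz)
      tauto
    have e4 : W w (cl D (cl D X)) = W w X + W w (cl D (H71.Lx D X) \ X) := by
      rw [e2, W_union Finset.disjoint_sdiff]
    rw [e4, e1]
    linarith

/-- Seymour's second neighbourhood conjecture, weighted form. -/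
theorem snc {V : Type u} [Fintype V] [Nonempty V] (D : OGraph V) (w : V → ℝ)
    (hw : ∀ v, 0 ≤ w v) : ∃ v, ∑ u ∈ N1 D v, w u ≤ ∑ u ∈ N2 D v, w u := by
  obtain ⟨v, hv⟩ := snc_of_noNF (lam := 1) zero_le_one (fun V _ _ D w h => by
    obtain ⟨D', w', h'⟩ := exists_nfmin h
    exact no_NFmin h') D w hw
  exact ⟨v, by simpa using hv⟩

end Vale.Agent.P038.H570
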