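import Vale.Agent.P038.H139.Steps

/-!
# The inequality between the inner and the outer minimal cut
-/

namespace Vale.Agent.P038.H570

open Finset Vale.Agent.P038 Vale.Agent.P038.H139
open scoped Classical

variable {V : Type*} [Fintype V]

/-- `b` is in the closed out-neighbourhood of `a`. -/
def rr (D : OGraph V) (a b : V) : Prop := a = b ∨ D.arc a b

theorem rr_refl (D : OGraph V) (a : V) : rr D a a := Or.inl rfl

theorem rr_antisymm {D : OGraph V} {a b : V} (h : rr D a b) (h' : rr D b a) : a = b := by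
  rcases h with h | h
  · exact h
  · rcases h' with h' | h'
    · exact h'.symm
    · exact absurd h' (D.asymm _ _ h)

theorem mem_cl' {D : OGraph V} {S : Finset V} {z : V} : z ∈ cl D S ↔ ∃ y ∈ S, rr D y z := by
  rw [mem_cl]
  constructor
  · rintro (h | ⟨y, hy, hyz⟩)
    · exact ⟨z, h, Or.inl rfl⟩
    · exact ⟨y, hy, Or.inr hyz⟩
  · rintro ⟨y, hy, rfl | h⟩
    · exact Or.inl hy
    · exact Or.inr ⟨y, hy, h⟩

theorem W_add (w : V → ℝ) (S T : Finset V) : W w S + W w T = W w (S ∪ T) + W w (S ∩ T) :=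
  (Finset.sum_union_inter).symm

/-- `w(N⁺[S] \ S)`. -/
noncomputable def cc (D : OGraph V) (w : V → ℝ) (S : Finset V) : ℝ := W w (cl D S) - W w S

theorem cc_submod {D : OGraph V} {w : V → ℝ} (hw : ∀ v, 0 ≤ w v) (S T : Finset V) :
    cc D w (S ∩ T) + cc D w (S ∪ T) ≤ cc D w S + cc D w T := by
  have h1 := W_add w S T
  have h2 := W_add w (cl D S) (cl D T)
  have h3 : cl D (S ∪ T) = cl D S ∪ cl D T := cl_union
  have h4 : W w (cl D (S ∩ T)) ≤ W w (cl D S ∩ cl D T) :=
    W_mono hw (Finset.subset_inter (cl_mono Finset.inter_subset_left)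
      (cl_mono Finset.inter_subset_right))
  unfold cc
  rw [h3]
  linarith

/-- Steps 1 and 2: intersecting optimal sets. -/
theorem iter {D : OGraph V} {w : V → ℝ} (hw : ∀ v, 0 ≤ w v) (P Q : V → Finset V)
    (hopt : ∀ i, ∀ S, P i ⊆ S → S ⊆ Q i → cc D w (P i) ≤ cc D w S)
    (hPQ : ∀ i, P i ⊆ Q i) (I : Finset V) :
    ∀ S : Finset V, (∀ i ∈ I, S ⊆ Q i) →
      cc D w (S.filter fun z => ∀ i ∈ I, z ∈ P i) ≤ cc D w S := by
  induction I using Finset.induction_on with
  | empty => intro S _; simp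
  | insert i I hi ih =>
    intro S hS
    have h1 := ih (S ∩ P i) (fun j hj => Finset.inter_subset_left.trans
      (hS j (Finset.mem_insert_of_mem hj)))
    have h2 : (S ∩ P i).filter (fun z => ∀ i ∈ I, z ∈ P i) =
        S.filter (fun z => ∀ j ∈ insert i I, z ∈ P j) := by
      ext z
      simp only [Finset.mem_filter, Finset.mem_inter, Finset.mem_insert, forall_eq_or_imp]
      tauto
    rw [h2] at h1
    have h3 := cc_submod (D := D) hw S (P i)
    have h4 := hopt i (S ∪ P i) Finset.subset_union_right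
      (Finset.union_subset (hS i (Finset.mem_insert_self _ _)) (hPQ i))
    linarith

/-- The value of the best transport of `S` into `B`, as a minimal cut. -/
noncomputable def Fc (D : OGraph V) (v : V → ℝ) (S B : Finset V) : ℝ :=
  S.powerset.inf' ⟨∅, Finset.empty_mem_powerset _⟩ fun X => W v (S \ X) + W v (cl D X ∩ B)

theorem Fc_le {D : OGraph V} {v : V → ℝ} {S B X : Finset V} (h : X ⊆ S) :
    Fc D v S B ≤ W v (S \ X) + W v (cl D X ∩ B) :=
  Finset.inf'_le (fun X => W v (S \ X) + W v (cl D X ∩ B)) (Finset.mem_powerset.2 h)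

theorem Fc_ex (D : OGraph V) (v : V → ℝ) (S B : Finset V) :
    ∃ X ⊆ S, Fc D v S B = W v (S \ X) + W v (cl D X ∩ B) := by
  obtain ⟨X, hX, h⟩ := Finset.exists_mem_eq_inf' (s := S.powerset)
    ⟨∅, Finset.empty_mem_powerset _⟩ (fun X => W v (S \ X) + W v (cl D X ∩ B))
  exact ⟨X, Finset.mem_powerset.1 hX, h⟩

/-- Sources and sinks are complements. -/
theorem compl {D : OGraph V} {v : V → ℝ} (hv : ∀ x, 0 ≤ v x) {S' Sa Pa C' Dd : Finset V} {b : V}
    (h1 : S' \ Pa ⊆ Sa) (h2 : b ∉ cl D Pa) (h3 : ∀ g ∈ Dd, g ∉ cl D Pa)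
    (h4 : ∀ g ∈ Dd, g ∈ cl D S' → g ∈ C') (hb : b ∉ Dd) :
    Fc D v S' (insert b C') + Fc D v Sa Dd ≤ Fc D v S' C' + Fc D v Sa (insert b Dd) := by
  obtain ⟨X', hX', e1⟩ := Fc_ex D v S' C'
  obtain ⟨X, hX, e2⟩ := Fc_ex D v Sa (insert b Dd)
  set Y' := X' ∩ (X ∪ Pa) with hY'
  set Y := X ∪ (X' \ Pa) with hY
  have hY's : Y' ⊆ S' := Finset.inter_subset_left.trans hX'
  have hYs : Y ⊆ Sa := by
    refine Finset.union_subset hX ?_
    exact (Finset.sdiff_subset_sdiff hX' (Finset.Subset.refl _)).trans h1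
  have i1 := Fc_le (D := D) (v := v) (B := insert b C') hY's
  have i2 := Fc_le (D := D) (v := v) (B := Dd) hYs
  have a1 : W v (S' \ Y') = W v S' - W v Y' := W_sdiff hY's
  have a2 : W v (Sa \ Y) = W v Sa - W v Y := W_sdiff hYs
  have a3 : W v (S' \ X') = W v S' - W v X' := W_sdiff hX'
  have a4 : W v (Sa \ X) = W v Sa - W v X := W_sdiff hX
  have a5 : W v Y' + W v Y = W v X' + W v X := by
    rw [W_add, W_add v X' X]
    congr 2
    · ext z
      simp only [hY', hY, Finset.mem_union, Finset.mem_inter, Finset.mem_sdiff]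
      tauto
    · ext z
      simp only [hY', hY, Finset.mem_union, Finset.mem_inter, Finset.mem_sdiff]
      tauto
  have a6 : W v (cl D Y' ∩ insert b C') + W v (cl D Y ∩ Dd) ≤
      W v (cl D X' ∩ C') + W v (cl D X ∩ insert b Dd) := by
    rw [W_add, W_add v (cl D X' ∩ C')]
    have hcY' : ∀ g, g ∈ cl D Y' → g ∈ cl D X' ∧ (g ∈ cl D X ∨ g ∈ cl D Pa) := by
      intro g hg
      rw [mem_cl'] at hg
      obtain ⟨y, hy, hyg⟩ := hg
      rw [hY', Finset.mem_inter, Finset.mem_union] at hy
      refine ⟨mem_cl'.2 ⟨y, hy.1, hyg⟩, ?_⟩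
      rcases hy.2 with h | h
      · exact Or.inl (mem_cl'.2 ⟨y, h, hyg⟩)
      · exact Or.inr (mem_cl'.2 ⟨y, h, hyg⟩)
    have hcY : ∀ g, g ∈ cl D Y → g ∈ cl D X ∨ g ∈ cl D X' := by
      intro g hg
      rw [mem_cl'] at hg
      obtain ⟨y, hy, hyg⟩ := hg
      rw [hY, Finset.mem_union, Finset.mem_sdiff] at hy
      rcases hy with h | h
      · exact Or.inl (mem_cl'.2 ⟨y, h, hyg⟩)
      · exact Or.inr (mem_cl'.2 ⟨y, h.1, hyg⟩)
    refine add_le_add (W_mono hv ?_) (W_mono hv ?_)
    · intro g hg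
      rw [Finset.mem_union, Finset.mem_inter, Finset.mem_inter, Finset.mem_insert] at hg
      rw [Finset.mem_union, Finset.mem_inter, Finset.mem_inter, Finset.mem_insert]
      rcases hg with ⟨hg1, hg2 | hg2⟩ | ⟨hg1, hg2⟩
      · subst hg2
        rcases (hcY' _ hg1).2 with h | h
        · exact Or.inr ⟨h, Or.inl rfl⟩
        · exact absurd h h2
      · exact Or.inl ⟨(hcY' _ hg1).1, hg2⟩
      · rcases hcY _ hg1 with h | h
        · exact Or.inr ⟨h, Or.inr hg2⟩
        · exact Or.inl ⟨h, h4 g hg2 (cl_mono hX' h)⟩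
    · intro g hg
      rw [Finset.mem_inter, Finset.mem_inter, Finset.mem_inter, Finset.mem_insert] at hg
      rw [Finset.mem_inter, Finset.mem_inter, Finset.mem_inter, Finset.mem_insert]
      obtain ⟨⟨hg1, hg2⟩, hg3, hg4⟩ := hg
      have hgb : g ≠ b := by
        rintro rfl
        exact hb hg4
      rcases hg2 with hg2 | hg2
      · exact absurd hg2 hgb
      · obtain ⟨h5, h6⟩ := hcY' _ hg1
        rcases h6 with h6 | h6
        · exact ⟨⟨h5, hg2⟩, h6, Or.inr hg4⟩
        · exact absurd h6 (h3 g hg4)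
  linarith

theorem cl_empty (D : OGraph V) : cl D (∅ : Finset V) = ∅ := by
  rw [Finset.eq_empty_iff_forall_notMem]
  intro z hz
  rw [mem_cl'] at hz
  simp at hz

theorem Fc_empty {D : OGraph V} {v : V → ℝ} (hv : ∀ x, 0 ≤ v x) (S : Finset V) :
    Fc D v S ∅ = 0 := by
  apply le_antisymm
  · have := Fc_le (D := D) (v := v) (B := ∅) (Finset.Subset.refl S)
    simpa [W] using this
  · obtain ⟨X, _, e⟩ := Fc_ex D v S ∅
    rw [e]
    exact add_nonneg (W_nonneg hv _) (W_nonneg hv _)

theorem Fc_le_W {D : OGraph V} {v : V → ℝ} (S B : Finset V) :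
    Fc D v S B ≤ W v S := by
  have := Fc_le (D := D) (v := v) (B := B) (Finset.empty_subset S)
  rw [cl_empty] at this
  simpa [W] using this

theorem Fc_insert {D : OGraph V} {v : V → ℝ} (hv : ∀ x, 0 ≤ v x) (S C : Finset V) (b : V) :
    Fc D v S (insert b C) ≤ Fc D v S C + v b := by
  obtain ⟨X, hX, e⟩ := Fc_ex D v S C
  have h1 := Fc_le (D := D) (v := v) (B := insert b C) hX
  have h2 : W v (cl D X ∩ insert b C) ≤ W v (cl D X ∩ C) + v b := by
    have h3 : W v (cl D X ∩ insert b C) ≤ W v ((cl D X ∩ C) ∪ {b}) := by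
      refine W_mono hv ?_
      intro g hg
      rw [Finset.mem_inter, Finset.mem_insert] at hg
      rw [Finset.mem_union, Finset.mem_inter, Finset.mem_singleton]
      tauto
    have h4 := W_add v (cl D X ∩ C) {b}
    have h5 := W_nonneg hv ((cl D X ∩ C) ∩ {b})
    have h6 : W v {b} = v b := by simp [W]
    linarith
  linarith

/-- The part of `S` filled at `b`. -/
noncomputable def ff (D : OGraph V) (v : V → ℝ) (ρ : V → ℕ) (S B : Finset V) (b : V) : ℝ :=
  Fc D v S (insert b (B.filter fun g => ρ g < ρ b)) - Fc D v S (B.filter fun g => ρ g < ρ b)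

/-- The unfilled part at `b`. -/
noncomputable def uu (D : OGraph V) (v : V → ℝ) (ρ : V → ℕ) (S B : Finset V) (b : V) : ℝ :=
  if b ∈ B then v b - ff D v ρ S B b else 0

theorem uu_nonneg {D : OGraph V} {v : V → ℝ} (hv : ∀ x, 0 ≤ v x) (ρ : V → ℕ) (S B : Finset V)
    (b : V) : 0 ≤ uu D v ρ S B b := by
  unfold uu ff
  split_ifs
  · have := Fc_insert (D := D) hv S (B.filter fun g => ρ g < ρ b) b
    linarith
  · exact le_refl 0

theorem tele {ρ : V → ℕ} (hρ : Function.Injective ρ) (Φ : Finset V → ℝ) (n : ℕ) :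
    ∀ B : Finset V, B.card = n →
    ∑ b ∈ B, (Φ (insert b (B.filter fun g => ρ g < ρ b)) - Φ (B.filter fun g => ρ g < ρ b)) =
      Φ B - Φ ∅ := by
  induction n with
  | zero =>
    intro B hB
    rw [Finset.card_eq_zero] at hB
    subst hB
    simp
  | succ n ih =>
    intro B hB
    have hne : B.Nonempty := by
      rw [← Finset.card_pos]; omega
    obtain ⟨m, hm, hmax⟩ := Finset.exists_max_image B ρ hne
    have hB' : (B.erase m).card = n := by
      rw [Finset.card_erase_of_mem hm]; omega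
    have h1 := ih (B.erase m) hB'
    rw [← Finset.add_sum_erase B _ hm]
    have h2 : (B.filter fun g => ρ g < ρ m) = B.erase m := by
      ext g
      rw [Finset.mem_filter, Finset.mem_erase]
      constructor
      · rintro ⟨h3, h4⟩
        refine ⟨?_, h3⟩
        rintro rfl
        exact lt_irrefl _ h4
      · rintro ⟨h3, h4⟩
        exact ⟨h4, lt_of_le_of_ne (hmax g h4) (fun h => h3 (hρ h))⟩
    have h3 : ∀ b ∈ B.erase m, (B.filter fun g => ρ g < ρ b) =
        ((B.erase m).filter fun g => ρ g < ρ b) := by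
      intro b hb
      ext g
      rw [Finset.mem_filter, Finset.mem_filter, Finset.mem_erase]
      constructor
      · rintro ⟨h4, h5⟩
        refine ⟨⟨?_, h4⟩, h5⟩
        rintro rfl
        have := hmax b (Finset.mem_of_mem_erase hb)
        omega
      · rintro ⟨⟨_, h4⟩, h5⟩
        exact ⟨h4, h5⟩
    have h4 : ∑ b ∈ B.erase m, (Φ (insert b (B.filter fun g => ρ g < ρ b)) -
        Φ (B.filter fun g => ρ g < ρ b)) = Φ (B.erase m) - Φ ∅ := by
      rw [← h1]
      refine Finset.sum_congr rfl fun b hb => ?_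
      rw [h3 b hb]
    rw [h4, h2, Finset.insert_erase hm]
    ring

theorem uu_sum {D : OGraph V} {v : V → ℝ} (hv : ∀ x, 0 ≤ v x) {ρ : V → ℕ}
    (hρ : Function.Injective ρ) (S B : Finset V) :
    ∑ b, uu D v ρ S B b = W v B - Fc D v S B := by
  have h1 := tele hρ (fun C => Fc D v S C) B.card B rfl
  have h2 : ∑ b, uu D v ρ S B b = ∑ b ∈ B, (v b - ff D v ρ S B b) := by
    unfold uu
    rw [← Finset.sum_filter]
    refine Finset.sum_congr ?_ fun _ _ => rfl
    ext b
    simp
  rw [h2, Finset.sum_sub_distrib]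
  unfold ff
  rw [h1, Fc_empty hv]
  unfold W
  ring

/-- Layer cake. -/
theorem layer {D : OGraph V} {w : V → ℝ} (T : Finset V) (n : ℕ) :
    ∀ (K : Finset V) (u u' : V → ℝ), K.card = n → (∀ a, 0 ≤ u' a) → (∀ a ∈ K, 0 ≤ u a) →
      (∀ a ∉ K, u a = 0) → (∀ S ⊆ K, W w S ≤ W w (cl D S ∩ T)) →
      (∀ a a', rr D a a' → a' ∈ T → u a ≤ u' a') → (∀ a, 0 ≤ w a) →
      ∑ a, w a * u a ≤ ∑ a, w a * u' a := by
  induction n with
  | zero =>
    intro K u u' hK hu' _ hK0 _ _ hw
    rw [Finset.card_eq_zero] at hK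
    subst hK
    refine Finset.sum_le_sum fun a _ => ?_
    rw [hK0 a (Finset.notMem_empty a)]
    exact mul_le_mul_of_nonneg_left (hu' a) (hw a)
  | succ n ih =>
    intro K u u' hK hu' hu hK0 hexp hmono hw
    have hne : K.Nonempty := by
      rw [← Finset.card_pos]; omega
    obtain ⟨m, hm, hmin⟩ := Finset.exists_min_image K u hne
    set μ := u m with hμ
    have hμ0 : 0 ≤ μ := hu m hm
    set u1 : V → ℝ := fun a => if a ∈ K then u a - μ else 0 with hu1
    set u1' : V → ℝ := fun a => if a ∈ cl D K ∩ T then u' a - μ else u' a with hu1'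
    have hB' : (K.erase m).card = n := by
      rw [Finset.card_erase_of_mem hm]; omega
    have h1 := ih (K.erase m) u1 u1' hB' (by
      intro a
      simp only [hu1']
      split_ifs with h
      · rw [Finset.mem_inter, mem_cl'] at h
        obtain ⟨⟨y, hy, hya⟩, ha⟩ := h
        have := hmono y a hya ha
        have := hmin y hy
        linarith
      · exact hu' a) (by
      intro a ha
      have haK := Finset.mem_of_mem_erase ha
      simp only [hu1, if_pos haK]
      have := hmin a haK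
      linarith) (by
      intro a ha
      simp only [hu1]
      split_ifs with h
      · have : a = m := by
          by_contra hne
          exact ha (Finset.mem_erase.2 ⟨hne, h⟩)
        rw [this]; simp [hμ]
      · rfl) (fun S hS => hexp S (hS.trans (Finset.erase_subset _ _))) (by
      intro a a' haa' ha'
      simp only [hu1, hu1']
      by_cases hK' : a ∈ K
      · have h2 : a' ∈ cl D K ∩ T := Finset.mem_inter.2 ⟨mem_cl'.2 ⟨a, hK', haa'⟩, ha'⟩
        rw [if_pos hK', if_pos h2]
        have := hmono a a' haa' ha'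
        linarith
      · rw [if_neg hK']
        split_ifs with h
        · rw [Finset.mem_inter, mem_cl'] at h
          obtain ⟨⟨y, hy, hya⟩, ha⟩ := h
          have := hmono y a' hya ha
          have := hmin y hy
          linarith
        · exact hu' a') hw
    have h2 : ∑ a, w a * u a = ∑ a, w a * u1 a + μ * W w K := by
      have : ∀ a, w a * u a = w a * u1 a + (if a ∈ K then μ * w a else 0) := by
        intro a
        simp only [hu1]
        split_ifs with h
        · ring
        · rw [hK0 a h]; ring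
      rw [Finset.sum_congr rfl fun a _ => this a, Finset.sum_add_distrib]
      congr 1
      rw [← Finset.sum_filter, W, Finset.mul_sum]
      refine Finset.sum_congr ?_ fun _ _ => rfl
      ext a
      simp
    have h3 : ∑ a, w a * u' a = ∑ a, w a * u1' a + μ * W w (cl D K ∩ T) := by
      have : ∀ a, w a * u' a = w a * u1' a + (if a ∈ cl D K ∩ T then μ * w a else 0) := by
        intro a
        simp only [hu1']
        split_ifs with h
        · ring
        · ring
      rw [Finset.sum_congr rfl fun a _ => this a, Finset.sum_add_distrib]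
      congr 1
      rw [← Finset.sum_filter, W, Finset.mul_sum]
      refine Finset.sum_congr ?_ fun _ _ => rfl
      ext a
      simp
    have h4 := mul_le_mul_of_nonneg_left (hexp K (Finset.Subset.refl _)) hμ0
    linarith

end Vale.Agent.P038.H570
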